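import Vale.Agent.Lib.P343.Defs
import Vale.Agent.Lib.P343.Main

namespace Vale.Agent.Results.P343.A_sublinear_reversals

open Vale.Agent.Lib.P343

/-- For every `h` there is a one-way automaton `N` with at most `h + 3` states such that every
two-way nondeterministic automaton `A` recognizing the complement of the language of `N`, with
`s` states where `2 (s + 1) ^ 6 < choose h (h / 2)`, makes linearly many direction reversals at
input cells: for a constant `C > 0` and arbitrarily long words `w` accepted by `A`, every accepting
run of `A` on `w` has `w.length ≤ C * internalReversals w ρ`. Reversals on the endmarkers are not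
counted at all, so sweeping automata make none. -/
theorem result (h : ℕ) :
    ∃ (Sig : Type) (_ : Fintype Sig) (Q₀ : Type) (_ : Fintype Q₀) (N : TwoNFA Sig Q₀),
      N.OneWay ∧ Fintype.card Q₀ ≤ h + 3 ∧
      ∀ (Q : Type) [Fintype Q] (A : TwoNFA Sig Q),
        (∀ w, A.Accepts w ↔ ¬ N.Accepts w) →
        2 * (Fintype.card Q + 1) ^ 6 < h.choose (h / 2) →
        ∃ C : ℕ, 0 < C ∧ ∀ n : ℕ, ∃ w : List Sig, n ≤ w.length ∧ A.Accepts w ∧
          ∀ ρ, A.IsAcceptingRun w ρ → w.length ≤ C * internalReversals w ρ :=
  ⟨Letter h, inferInstance, St h, inferInstance, NN h, NN_oneWay h, St_card h,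
    fun _ _ A hA hc => main_bound A hA hc⟩

end Vale.Agent.Results.P343.A_sublinear_reversals
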